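import Vale.Agent.P359.H329.Main

/-!
P359, question Q1 (the Laughlin spectral gap conjecture on the sphere), in a stronger form: the
Hamiltonian `H_{N,Q} = ∑_{i<j} P_{ij}` has a spectral gap above its zero-energy states which is
uniform in the particle number `N` and in the flux `Q`. The definitions used in the statement are
in `Vale/Agent/P359/Stmt.lean` and `Vale/Agent/P359/H329/Defs.lean`.
-/

namespace Vale.Agent.Results.P359.AllFluxes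

open Vale.Agent.P359 Vale.Agent.P359.AllFlux

/-- For each `Q ≥ 1` there is exactly one orthogonal projection `P` of `U_Q ⊗ U_Q` onto total spin
`Q - 1`. Let `H = ∑_{i<j} P_{ij}`.
(1) Question Q1 with `N₀ = 2`: one `δ > 0` such that for all `N ≥ 2`, `Q = 3 (N - 1)`, the Laughlin
vector is a nonzero fermionic vector with `H Ψ_L = 0` and `H ≥ δ (I - P_L)` on the fermionic space.
(2) Every `δ < 1/50` is admissible in Q1 for all large `N`.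
(3) One `δ > 0` such that `H_{N,Q} ≥ δ (I - P₀)` for all fluxes `Q ≥ 1` and all particle numbers
`N`, `P₀` the projection onto the zero-energy states.
(4) For every `δ < 1/50` this holds for all large `Q` and all `N`.
(5) The zero-energy states are the fermionic states whose polynomial is divisible by
`∏_{i<j} (z_i - z_j)^3`; nonzero ones exist if and only if `Q ≥ 3 (N - 1)`.
(6) For every `δ < 1/50`, all large `Q` and all `N` with `Q < 3 (N - 1)`, `H_{N,Q} ≥ δ`. -/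
theorem result :
    (∀ Q : ℕ, 1 ≤ Q → ∃! P, IsPairProj Q P) ∧
    -- (1)
    (∃ δ : ℝ, 0 < δ ∧ ∀ N : ℕ, 2 ≤ N → ∀ P, IsPairProj (3 * (N - 1)) P →
      IsFermionic (laughlinVec N) ∧ laughlinVec N ≠ 0 ∧ pairSum P (laughlinVec N) = 0 ∧
      ∀ Ψ, IsFermionic Ψ →
        δ * (braket (perpPart Ψ) (perpPart Ψ)).re ≤ (braket Ψ (pairSum P Ψ)).re) ∧
    -- (2)
    (∀ δ : ℝ, δ < 1 / 50 → ∃ N₀ : ℕ, ∀ N : ℕ, N₀ ≤ N → ∀ P, IsPairProj (3 * (N - 1)) P →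
      ∀ Ψ, IsFermionic Ψ →
        δ * (braket (perpPart Ψ) (perpPart Ψ)).re ≤ (braket Ψ (pairSum P Ψ)).re) ∧
    -- (3)
    (∃ δ : ℝ, 0 < δ ∧ ∀ Q : ℕ, 1 ≤ Q → ∀ N : ℕ, GapAboveZero δ N Q) ∧
    -- (4)
    (∀ δ : ℝ, δ < 1 / 50 → ∃ Q₀ : ℕ, ∀ Q : ℕ, Q₀ ≤ Q → ∀ N : ℕ, GapAboveZero δ N Q) ∧
    -- (5)
    (∀ N Q : ℕ, 1 ≤ Q → ∀ P, IsPairProj Q P →
      (∀ Φ : (Fin N → Fin (Q + 1)) → ℂ, IsFermionic Φ →
        (pairSum P Φ = 0 ↔ laughlinFactor N ∣ statePoly Φ)) ∧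
      ((∃ Φ : (Fin N → Fin (Q + 1)) → ℂ, Φ ≠ 0 ∧ IsZeroState P Φ) ↔ 3 * (N - 1) ≤ Q)) ∧
    -- (6)
    (∀ δ : ℝ, δ < 1 / 50 → ∃ Q₀ : ℕ, ∀ Q : ℕ, Q₀ ≤ Q → ∀ N : ℕ, Q < 3 * (N - 1) →
      ∀ P, IsPairProj Q P → ∀ Ψ : (Fin N → Fin (Q + 1)) → ℂ, IsFermionic Ψ →
        δ * (braket Ψ Ψ).re ≤ (braket Ψ (pairSum P Ψ)).re) :=
  ⟨fun Q _ => unique_pairProj Q, laughlin_all, laughlin_asymptotic, uniform_gap, asymptotic_gap,
    fun _ _ hQ _ hP => ⟨fun _ hΦ => zeroState_iff_dvd hQ hP hΦ, exists_zeroState_iff hQ hP⟩,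
    energy_below⟩

end Vale.Agent.Results.P359.AllFluxes
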