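import Vale.Agent.P359.H737.Main

/-!
P359, question Q1 (the Laughlin spectral gap conjecture on the sphere) in both of its forms, with
the eigenvalues counted with multiplicity, and the low-energy spectrum of `H_{N,Q}` for all particle
numbers and all fluxes: the number of the zero-energy states and a uniform gap above them. The
definitions used in the statement are in `Vale/Agent/P359/Stmt.lean` and
`Vale/Agent/P359/H737/Defs.lean`.
-/

namespace Vale.Agent.Results.P359.EnergyLevels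

open Vale.Agent.P359 Vale.Agent.P359.Levels

/-- For each `Q ≥ 1` there is exactly one orthogonal projection `P` of `U_Q ⊗ U_Q` onto total spin
`Q - 1`. Let `H = ∑_{i<j} P_{ij}` on `⋀^N U_Q`.
(1) Q1, first form: there are `δ ≥ 1/100` and `N₀` such that for all `N ≥ N₀`, `Q = 3 (N - 1)`, the
Laughlin vector is a nonzero fermionic vector with `H Ψ_L = 0` and `H ≥ δ (I - P_L)`.
There is exactly one increasing list `E N Q 0 ≤ E N Q 1 ≤ ⋯` of the eigenvalues of `H` on the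
fermionic space `⋀^N U_Q`, counted with multiplicity; its length is `binom (Q + 1) N`.
(2) Q1, second form, `Q = 3 (N - 1)`: `E_0(N) = 0` for all `N ≥ 2`, and `ker H` consists of the
multiples of the Laughlin vector; the gaps `Δ_N = E_1(N) - E_0(N)`, `N ≥ 2`, are bounded below by
one `δ > 0`, and `liminf Δ_N ≥ 1/50`.
(3) For all `Q ≥ 1` and all `N` exactly the first `zeroCount N Q` eigenvalues are zero: the
zero-energy states have dimension `binom (Q - 3 (N - 1) + N) N` if `Q ≥ 3 (N - 1)`, otherwise `0`.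
(4) One `δ > 0` is a lower bound for all the other eigenvalues, for all `N` and `Q ≥ 1`.
(5) Every `δ < 1/50` is such a lower bound for all `Q ≥ Q₀(δ)` and all `N`. -/
theorem result :
    (∀ Q : ℕ, 1 ≤ Q → ∃! P, IsPairProj Q P) ∧
    -- (1)
    (∃ δ : ℝ, 1 / 100 ≤ δ ∧ ∃ N₀ : ℕ, ∀ N : ℕ, N₀ ≤ N → ∀ P, IsPairProj (3 * (N - 1)) P →
      IsFermionic (laughlinVec N) ∧ laughlinVec N ≠ 0 ∧ pairSum P (laughlinVec N) = 0 ∧
      ∀ Ψ, IsFermionic Ψ →
        δ * (braket (perpPart Ψ) (perpPart Ψ)).re ≤ (braket Ψ (pairSum P Ψ)).re) ∧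
    -- the eigenvalues of `H` on the fermionic space, counted with multiplicity
    ∃ E : ℕ → ℕ → ℕ → ℝ,
      (∀ N Q : ℕ, 1 ≤ Q → ∀ P, IsPairProj Q P →
        IsLevels N P (fun k : Fin (Nat.choose (Q + 1) N) => E N Q k) ∧
        ∀ (D : ℕ) (E' : Fin D → ℝ), IsLevels N P E' →
          D = Nat.choose (Q + 1) N ∧ ∀ k, E' k = E N Q k) ∧
      -- (2)
      ((∀ N : ℕ, 2 ≤ N → E N (3 * (N - 1)) 0 = 0 ∧ ∀ P, IsPairProj (3 * (N - 1)) P →
          ∀ Φ : (Fin N → Fin (3 * (N - 1) + 1)) → ℂ,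
            IsFermionic Φ ∧ pairSum P Φ = 0 ↔ ∃ c : ℂ, Φ = c • laughlinVec N) ∧
        (∃ δ : ℝ, 0 < δ ∧ ∀ N : ℕ, 2 ≤ N → δ ≤ E N (3 * (N - 1)) 1 - E N (3 * (N - 1)) 0) ∧
        ((1 / 50 : ℝ) : EReal) ≤ Filter.liminf
          (fun N : ℕ => ((E N (3 * (N - 1)) 1 - E N (3 * (N - 1)) 0 : ℝ) : EReal))
          Filter.atTop) ∧
      -- (3)
      (∀ N Q k : ℕ, 1 ≤ Q → k < Nat.choose (Q + 1) N → (E N Q k = 0 ↔ k < zeroCount N Q)) ∧
      -- (4)
      (∃ δ : ℝ, 0 < δ ∧ ∀ N Q k : ℕ, 1 ≤ Q → zeroCount N Q ≤ k →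
        k < Nat.choose (Q + 1) N → δ ≤ E N Q k) ∧
      -- (5)
      (∀ δ : ℝ, δ < 1 / 50 → ∃ Q₀ : ℕ, ∀ N Q k : ℕ, Q₀ ≤ Q → zeroCount N Q ≤ k →
        k < Nat.choose (Q + 1) N → δ ≤ E N Q k) := by
  refine ⟨laughlin_gap.1, laughlin_gap.2, energy, ?_, ⟨?_, ?_, liminf_gap⟩, ?_, ?_, ?_⟩
  · intro N Q _ P hP
    exact ⟨energy_isLevels hP, fun D E' h => energy_unique hP h⟩
  · intro N hN
    exact ⟨energy_laughlin_zero hN, fun P hP Φ => zero_iff_laughlin hN hP Φ⟩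
  · obtain ⟨δ, hδ, h⟩ := AllFlux.uniform_gap
    exact ⟨δ, hδ, fun N hN => gap_laughlin hN (h _ (by omega) N)⟩
  · intro N Q k hQ hk
    exact energy_eq_zero_iff hQ hk
  · obtain ⟨δ, hδ, h⟩ := AllFlux.uniform_gap
    exact ⟨δ, hδ, fun N Q k hQ h0 hk => energy_gap hQ (h Q hQ N) hk h0⟩
  · intro δ hδ
    obtain ⟨Q₀, h⟩ := AllFlux.asymptotic_gap δ hδ
    exact ⟨max Q₀ 1, fun N Q k hQ h0 hk => energy_gap ((le_max_right _ _).trans hQ)
      (h Q ((le_max_left _ _).trans hQ) N) hk h0⟩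

end Vale.Agent.Results.P359.EnergyLevels
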